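import Vale.Agent.P348.Model
import Vale.Agent.P348.Cert
import Vale.Agent.P348.Spin

namespace Vale.Agent.Results.P348.Gap

open Vale.Agent.P348

theorem result (S : Fin 3 → Matrix (Fin 3) (Fin 3) ℂ) (hS : ∀ a, (S a).IsHermitian)
    (h01 : S 0 * S 1 - S 1 * S 0 = Complex.I • S 2)
    (h12 : S 1 * S 2 - S 2 * S 1 = Complex.I • S 0)
    (h20 : S 2 * S 0 - S 0 * S 2 = Complex.I • S 1)
    (hC : S 0 * S 0 + S 1 * S 1 + S 2 * S 2 = (2 : ℂ) • (1 : Matrix (Fin 3) (Fin 3) ℂ)) :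
    ∃ Δ : ℝ, 0 < Δ ∧ ∀ L : ℕ, Even L → 4 ≤ L →
      ∃ E₀ : ℝ, IsLeast (spectrum ℝ (ham S L)) E₀ ∧
        ∀ E ∈ spectrum ℝ (ham S L), E ≠ E₀ → E₀ + Δ ≤ E := by
  obtain ⟨d, hd, h⟩ := gap_all start_t start_s
  refine ⟨d, hd, fun L he hL => ?_⟩
  rw [spectrum_ham S hS h01 h12 h20 hC L]
  exact h L he hL

end Vale.Agent.Results.P348.Gap
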